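import Mathlib

/-!
# P022-L3, chapter G, row [HECN] / [HK], group part

`Gp P Q = {γ | Q ∣ γ₁₀, P ∣ γ₀₁, γ₁₁ ≡ ± 1 mod Q}` (`P = 2^M`, `Q = N 2^M`: the group `G(N, M)` of
`L3/Defs.lean`, letter for letter), the representatives `al P l d i` of determinant `l`,
and for every `γ` in `Gp P Q` the permutation and the elements `γ_i` with
`α_i γ = γ_i α_(π i)`.
-/

set_option autoImplicit false

namespace Vale.Agent.P022.H231.L3

open Matrix Matrix.SpecialLinearGroup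
open scoped MatrixGroups

/-- `P | A01`, `Q | A10`, diagonal `(s, t)` modulo `Q` -/
structure RR (P Q : ℤ) (A : Matrix (Fin 2) (Fin 2) ℤ) (s t : ℤ) : Prop where
  h01 : P ∣ A 0 1
  h10 : Q ∣ A 1 0
  h00 : Q ∣ A 0 0 - s
  h11 : Q ∣ A 1 1 - t

theorem RR.mul {P Q : ℤ} {A B : Matrix (Fin 2) (Fin 2) ℤ} {s t s' t' : ℤ}
    (h : RR P Q A s t) (h' : RR P Q B s' t') : RR P Q (A * B) (s * s') (t * t') := by
  obtain ⟨⟨a1, ha1⟩, ⟨a2, ha2⟩, ⟨a3, ha3⟩, ⟨a4, ha4⟩⟩ := h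
  obtain ⟨⟨b1, hb1⟩, ⟨b2, hb2⟩, ⟨b3, hb3⟩, ⟨b4, hb4⟩⟩ := h'
  refine ⟨?_, ?_, ?_, ?_⟩
  · rw [Matrix.mul_apply, Fin.sum_univ_two]
    refine ⟨A 0 0 * b1 + a1 * B 1 1, ?_⟩
    linear_combination A 0 0 * hb1 + B 1 1 * ha1
  · rw [Matrix.mul_apply, Fin.sum_univ_two]
    refine ⟨a2 * B 0 0 + A 1 1 * b2, ?_⟩
    linear_combination B 0 0 * ha2 + A 1 1 * hb2
  · rw [Matrix.mul_apply, Fin.sum_univ_two]
    refine ⟨a3 * B 0 0 + s * b3 + A 0 1 * b2, ?_⟩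
    linear_combination B 0 0 * ha3 + s * hb3 + A 0 1 * hb2
  · rw [Matrix.mul_apply, Fin.sum_univ_two]
    refine ⟨a4 * B 1 1 + t * b4 + a2 * B 0 1, ?_⟩
    linear_combination B 1 1 * ha4 + t * hb4 + B 0 1 * ha2

theorem RR.adj {P Q : ℤ} {A : Matrix (Fin 2) (Fin 2) ℤ} {s t : ℤ}
    (h : RR P Q A s t) : RR P Q (Matrix.adjugate A) t s := by
  obtain ⟨h1, h2, h3, h4⟩ := h
  rw [Matrix.adjugate_fin_two]
  refine ⟨?_, ?_, ?_, ?_⟩
  · simpa using h1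
  · simpa using h2
  · simpa using h4
  · simpa using h3

theorem RR.congr {P Q : ℤ} {A : Matrix (Fin 2) (Fin 2) ℤ} {s t s' t' : ℤ}
    (h : RR P Q A s t) (hs : Q ∣ s - s') (ht : Q ∣ t - t') : RR P Q A s' t' := by
  refine ⟨h.h01, h.h10, ?_, ?_⟩
  · have : A 0 0 - s' = (A 0 0 - s) + (s - s') := by ring
    rw [this]; exact dvd_add h.h00 hs
  · have : A 1 1 - t' = (A 1 1 - t) + (t - t') := by ring
    rw [this]; exact dvd_add h.h11 ht

theorem RR.inv {P Q : ℤ} {γ : SL(2, ℤ)} {s t : ℤ}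
    (h : RR P Q (γ : Matrix (Fin 2) (Fin 2) ℤ) s t) :
    RR P Q ((γ⁻¹ : SL(2, ℤ)) : Matrix (Fin 2) (Fin 2) ℤ) t s := by
  rw [Matrix.SpecialLinearGroup.coe_inv]
  exact h.adj

/-- the membership of `γ` in `G(N, M)` -/
theorem mem_iff {P Q : ℤ} {γ : SL(2, ℤ)} :
    (Q ∣ γ 1 0 ∧ P ∣ γ 0 1 ∧ (Q ∣ γ 1 1 - 1 ∨ Q ∣ γ 1 1 + 1)) ↔
    ∃ ε : ℤ, ε * ε = 1 ∧ RR P Q (γ : Matrix (Fin 2) (Fin 2) ℤ) ε ε := by
  have hdet := γ.det_coe
  rw [Matrix.det_fin_two] at hdet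
  constructor
  · rintro ⟨h1, h2, h3⟩
    obtain ⟨x, hx⟩ := h1
    rcases h3 with h3 | h3
    · refine ⟨1, by norm_num, h2, ⟨x, hx⟩, ?_, h3⟩
      obtain ⟨y, hy⟩ := h3
      refine ⟨γ 0 1 * x - γ 0 0 * y, ?_⟩
      linear_combination hdet + γ 0 1 * hx - γ 0 0 * hy
    · refine ⟨-1, by norm_num, h2, ⟨x, hx⟩, ?_, by simpa using h3⟩
      obtain ⟨y, hy⟩ := h3
      refine ⟨-(γ 0 1 * x) + γ 0 0 * y, ?_⟩
      linear_combination -hdet - γ 0 1 * hx + γ 0 0 * hy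
  · rintro ⟨ε, he, h⟩
    refine ⟨h.h10, h.h01, ?_⟩
    rcases mul_self_eq_one_iff.1 he with rfl | rfl
    · exact Or.inl h.h11
    · right; simpa using h.h11

/-- the group `G(N, M)`, `P = 2^M`, `Q = N 2^M` -/
def Gp (P Q : ℤ) : Subgroup SL(2, ℤ) where
  carrier := {γ | Q ∣ γ 1 0 ∧ P ∣ γ 0 1 ∧ (Q ∣ γ 1 1 - 1 ∨ Q ∣ γ 1 1 + 1)}
  one_mem' := by simp
  mul_mem' := by
    intro γ δ hγ hδ
    obtain ⟨e, he, h⟩ := mem_iff.1 hγ
    obtain ⟨e', he', h'⟩ := mem_iff.1 hδ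
    refine mem_iff.2 ⟨e * e', by linear_combination e' * e' * he + he', ?_⟩
    rw [Matrix.SpecialLinearGroup.coe_mul]
    exact h.mul h'
  inv_mem' := by
    intro γ hγ
    obtain ⟨e, he, h⟩ := mem_iff.1 hγ
    exact mem_iff.2 ⟨e, he, h.inv⟩

theorem mem_Gp {P Q : ℤ} {γ : SL(2, ℤ)} : γ ∈ Gp P Q ↔
    Q ∣ γ 1 0 ∧ P ∣ γ 0 1 ∧ (Q ∣ γ 1 1 - 1 ∨ Q ∣ γ 1 1 + 1) := Iff.rfl

theorem mem_Gp' {P Q : ℤ} {γ : SL(2, ℤ)} : γ ∈ Gp P Q ↔
    ∃ ε : ℤ, ε * ε = 1 ∧ RR P Q (γ : Matrix (Fin 2) (Fin 2) ℤ) ε ε := mem_iff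

theorem neg_one_mem (P Q : ℤ) : (-1 : SL(2, ℤ)) ∈ Gp P Q := by
  refine ⟨by simp, by simp, Or.inr (by simp)⟩

/-- `Γ(Q) ≤ G` if `P ∣ Q` -/
theorem Gamma_le (P : ℤ) (Q : ℕ) (h : P ∣ Q) : CongruenceSubgroup.Gamma Q ≤ Gp P Q := by
  intro γ hγ
  rw [CongruenceSubgroup.Gamma_mem] at hγ
  obtain ⟨h1, h2, h3, h4⟩ := hγ
  refine ⟨(ZMod.intCast_zmod_eq_zero_iff_dvd _ _).1 h3,
    h.trans ((ZMod.intCast_zmod_eq_zero_iff_dvd _ _).1 h2), Or.inl ?_⟩
  rw [← ZMod.intCast_zmod_eq_zero_iff_dvd]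
  push_cast
  rw [h4, sub_self]

/-- the representatives; `d = δ_l`, `P = 2^M` -/
def al (P : ℤ) (l : ℕ) (d : SL(2, ℤ)) : Option (Fin l) → Matrix (Fin 2) (Fin 2) ℤ
  | some j => !![1, P * (j.1 : ℤ); 0, (l : ℤ)]
  | none => (d : Matrix (Fin 2) (Fin 2) ℤ) * !![(l : ℤ), 0; 0, 1]

theorem det_al (P : ℤ) (l : ℕ) (d : SL(2, ℤ)) (i : Option (Fin l)) : (al P l d i).det = l := by
  cases i with
  | none => simp [al, Matrix.det_mul, Matrix.det_fin_two_of]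
  | some j => simp [al, Matrix.det_fin_two_of]

/-- the diamond matrix -/
def IsDel (P Q : ℤ) (a : ℤ) (d : SL(2, ℤ)) : Prop :=
  Q ∣ d 1 0 ∧ P ∣ d 0 1 ∧ Q ∣ d 1 1 - a

theorem IsDel.exists (P Q : ℤ) (a : ℤ) (ha : IsCoprime a (P * Q)) :
    ∃ d : SL(2, ℤ), IsDel P Q a d := by
  obtain ⟨x, y, hxy⟩ := ha
  refine ⟨⟨!![x, -(P * y); Q, a], ?_⟩, ?_, ?_, ?_⟩
  · rw [Matrix.det_fin_two_of]
    linear_combination hxy
  · show Q ∣ Q
    exact dvd_refl _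
  · show P ∣ -(P * y)
    exact (dvd_neg).2 (Dvd.intro _ rfl)
  · show Q ∣ a - a
    simp

theorem IsDel.rr {P Q : ℤ} {a : ℤ} {d : SL(2, ℤ)} (h : IsDel P Q a d) :
    RR P Q (d : Matrix (Fin 2) (Fin 2) ℤ) (d 0 0) a :=
  ⟨h.2.1, h.1, by simp, h.2.2⟩

theorem IsDel.mul_sub {P Q : ℤ} {a : ℤ} {d : SL(2, ℤ)} (h : IsDel P Q a d) :
    Q ∣ d 0 0 * a - 1 := by
  have hdet := d.det_coe
  rw [Matrix.det_fin_two] at hdet
  obtain ⟨x, hx⟩ := h.1
  obtain ⟨y, hy⟩ := h.2.2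
  refine ⟨d 0 1 * x - d 0 0 * y, ?_⟩
  linear_combination hdet + d 0 1 * hx - d 0 0 * hy

theorem IsDel.conj {P Q : ℤ} {a : ℤ} {d : SL(2, ℤ)} (h : IsDel P Q a d) {γ : SL(2, ℤ)}
    (hγ : γ ∈ Gp P Q) : d * γ * d⁻¹ ∈ Gp P Q := by
  obtain ⟨e, he, hr⟩ := mem_Gp'.1 hγ
  refine mem_Gp'.2 ⟨e, he, ?_⟩
  rw [Matrix.SpecialLinearGroup.coe_mul, Matrix.SpecialLinearGroup.coe_mul]
  refine ((h.rr.mul hr).mul h.rr.inv).congr ?_ ?_
  · obtain ⟨x, hx⟩ := h.mul_sub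
    exact ⟨e * x, by linear_combination e * hx⟩
  · obtain ⟨x, hx⟩ := h.mul_sub
    exact ⟨e * x, by linear_combination e * hx⟩

theorem IsDel.conj' {P Q : ℤ} {a : ℤ} {d : SL(2, ℤ)} (h : IsDel P Q a d) {γ : SL(2, ℤ)}
    (hγ : γ ∈ Gp P Q) : d⁻¹ * γ * d ∈ Gp P Q := by
  obtain ⟨e, he, hr⟩ := mem_Gp'.1 hγ
  refine mem_Gp'.2 ⟨e, he, ?_⟩
  rw [Matrix.SpecialLinearGroup.coe_mul, Matrix.SpecialLinearGroup.coe_mul]
  refine ((h.rr.inv.mul hr).mul h.rr).congr ?_ ?_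
  · obtain ⟨x, hx⟩ := h.mul_sub
    exact ⟨e * x, by linear_combination e * hx⟩
  · obtain ⟨x, hx⟩ := h.mul_sub
    exact ⟨e * x, by linear_combination e * hx⟩

/-- two diamond matrices differ by an element of the group -/
theorem IsDel.mul_inv {P Q : ℤ} {a : ℤ} {d d' : SL(2, ℤ)} (h : IsDel P Q a d)
    (h' : IsDel P Q a d') : d * d'⁻¹ ∈ Gp P Q := by
  refine mem_Gp'.2 ⟨1, by norm_num, ?_⟩
  rw [Matrix.SpecialLinearGroup.coe_mul]
  refine (h.rr.mul h'.rr.inv).congr ?_ ?_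
  · simpa using h.mul_sub
  · obtain ⟨x, hx⟩ := h'.mul_sub
    exact ⟨x, by linear_combination hx⟩

theorem RR.al {P Q : ℤ} {l : ℕ} {d : SL(2, ℤ)} (h : IsDel P Q l d) (i : Option (Fin l)) :
    RR P Q (al P l d i) 1 l := by
  cases i with
  | some j => refine ⟨⟨(j.1 : ℤ), rfl⟩, ⟨0, ?_⟩, ⟨0, ?_⟩, ⟨0, ?_⟩⟩ <;> simp [L3.al]
  | none =>
    have h1 : RR P Q (!![(l : ℤ), 0; 0, 1]) l 1 :=
      ⟨⟨0, by simp⟩, ⟨0, by simp⟩, ⟨0, by simp⟩, ⟨0, by simp⟩⟩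
    refine (h.rr.mul h1).congr h.mul_sub ?_
    simp

/-- membership of the left factor -/
theorem mem_of_eq {P Q : ℤ} {l : ℕ} (hP : IsCoprime (l : ℤ) P) (hQ : IsCoprime (l : ℤ) Q)
    {d : SL(2, ℤ)} (h : IsDel P Q l d) {γ : SL(2, ℤ)} (hγ : γ ∈ Gp P Q)
    {g : SL(2, ℤ)} {i j : Option (Fin l)}
    (e : al P l d i * (γ : Matrix (Fin 2) (Fin 2) ℤ)
      = (g : Matrix (Fin 2) (Fin 2) ℤ) * al P l d j) : g ∈ Gp P Q := by
  have e2 : (l : ℤ) • (g : Matrix (Fin 2) (Fin 2) ℤ)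
      = al P l d i * (γ : Matrix (Fin 2) (Fin 2) ℤ) * Matrix.adjugate (al P l d j) := by
    rw [e, Matrix.mul_assoc, Matrix.mul_adjugate, det_al, Matrix.mul_smul, Matrix.mul_one]
  obtain ⟨ε, he, hγR⟩ := mem_Gp'.1 hγ
  have hR := ((RR.al h i).mul hγR).mul (RR.al h j).adj
  rw [← e2] at hR
  obtain ⟨r1, r2, r3, r4⟩ := hR
  simp only [Matrix.smul_apply, smul_eq_mul] at r1 r2 r3 r4
  refine mem_Gp'.2 ⟨ε, he, hP.symm.dvd_of_dvd_mul_left r1, hQ.symm.dvd_of_dvd_mul_left r2, ?_, ?_⟩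
  · apply hQ.symm.dvd_of_dvd_mul_left
    have : (l : ℤ) * ((g : Matrix (Fin 2) (Fin 2) ℤ) 0 0 - ε)
        = l * (g : Matrix (Fin 2) (Fin 2) ℤ) 0 0 - 1 * ε * l := by ring
    rw [this]; exact r3
  · apply hQ.symm.dvd_of_dvd_mul_left
    have : (l : ℤ) * ((g : Matrix (Fin 2) (Fin 2) ℤ) 1 1 - ε)
        = l * (g : Matrix (Fin 2) (Fin 2) ℤ) 1 1 - l * ε * 1 := by ring
    rw [this]; exact r4

/-- every integral matrix of determinant `l` is in some coset -/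
theorem exists_coset {P : ℤ} {l : ℕ} (hl : l.Prime) (hP : IsCoprime (l : ℤ) P) (d : SL(2, ℤ))
    (A : Matrix (Fin 2) (Fin 2) ℤ) (hA : A.det = l) :
    ∃ (i : Option (Fin l)) (g : SL(2, ℤ)), A = (g : Matrix (Fin 2) (Fin 2) ℤ) * al P l d i := by
  have hfact : Fact l.Prime := ⟨hl⟩
  rw [Matrix.det_fin_two] at hA
  have hl0 : (l : ℤ) ≠ 0 := by exact_mod_cast hl.ne_zero
  by_cases hc : (l : ℤ) ∣ A 0 0 ∧ (l : ℤ) ∣ A 1 0
  · obtain ⟨⟨x, hx⟩, ⟨y, hy⟩⟩ := hc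
    have hd : (!![x, A 0 1; y, A 1 1] : Matrix (Fin 2) (Fin 2) ℤ).det = 1 := by
      rw [Matrix.det_fin_two_of]
      have : (l : ℤ) * (x * A 1 1 - A 0 1 * y) = l * 1 := by
        rw [hx, hy] at hA
        linear_combination hA
      exact mul_left_cancel₀ hl0 this
    let B : SL(2, ℤ) := ⟨_, hd⟩
    have hB : ((B * d⁻¹ : SL(2, ℤ)) : Matrix (Fin 2) (Fin 2) ℤ) *
        (d : Matrix (Fin 2) (Fin 2) ℤ) = !![x, A 0 1; y, A 1 1] := by
      rw [← Matrix.SpecialLinearGroup.coe_mul, inv_mul_cancel_right]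
    refine ⟨none, B * d⁻¹, ?_⟩
    show A = ((B * d⁻¹ : SL(2, ℤ)) : Matrix (Fin 2) (Fin 2) ℤ) *
      ((d : Matrix (Fin 2) (Fin 2) ℤ) * !![(l : ℤ), 0; 0, 1])
    rw [← Matrix.mul_assoc, hB]
    ext i j
    fin_cases i <;> fin_cases j <;>
      simp [Matrix.mul_apply, Fin.sum_univ_two, hx, hy, mul_comm]
  · -- a residue
    have h2M : ((P : ZMod l)) ≠ 0 := by
      intro h
      rw [ZMod.intCast_zmod_eq_zero_iff_dvd] at h
      exact (Nat.prime_iff_prime_int.1 hl).not_isUnit (hP.isUnit_of_dvd' dvd_rfl h)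
    have hAz : (A 0 0 : ZMod l) * A 1 1 - A 0 1 * A 1 0 = 0 := by
      have := congrArg (Int.cast : ℤ → ZMod l) hA
      push_cast at this
      rw [this]; simp
    obtain ⟨c, hc0, hc1⟩ : ∃ c : ZMod l, (A 0 1 : ZMod l) = P * c * A 0 0 ∧
        (A 1 1 : ZMod l) = P * c * A 1 0 := by
      by_cases h0 : (l : ℤ) ∣ A 0 0
      · have h1 : ¬ (l : ℤ) ∣ A 1 0 := fun h => hc ⟨h0, h⟩
        have h1' : (A 1 0 : ZMod l) ≠ 0 := by
          intro h; exact h1 ((ZMod.intCast_zmod_eq_zero_iff_dvd _ _).1 h)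
        have h0' : (A 0 0 : ZMod l) = 0 := (ZMod.intCast_zmod_eq_zero_iff_dvd _ _).2 h0
        refine ⟨(A 1 1) / (P * A 1 0), ?_, ?_⟩
        · rw [h0'] at hAz ⊢
          have : (A 0 1 : ZMod l) * A 1 0 = 0 := by linear_combination -hAz
          rcases mul_eq_zero.1 this with h | h
          · rw [h]; simp
          · exact absurd h h1'
        · field_simp
      · have h0' : (A 0 0 : ZMod l) ≠ 0 := by
          intro h; exact h0 ((ZMod.intCast_zmod_eq_zero_iff_dvd _ _).1 h)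
        refine ⟨(A 0 1) / (P * A 0 0), ?_, ?_⟩
        · field_simp
        · field_simp
          linear_combination hAz
    let k : Fin l := ⟨c.val, ZMod.val_lt c⟩
    have hk : ((k.1 : ℕ) : ZMod l) = c := by simp [k]
    have d0 : (l : ℤ) ∣ A 0 1 - P * (k.1 : ℤ) * A 0 0 := by
      rw [← ZMod.intCast_zmod_eq_zero_iff_dvd]
      push_cast
      rw [hk, hc0]; ring
    have d1 : (l : ℤ) ∣ A 1 1 - P * (k.1 : ℤ) * A 1 0 := by
      rw [← ZMod.intCast_zmod_eq_zero_iff_dvd]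
      push_cast
      rw [hk, hc1]; ring
    obtain ⟨x, hx⟩ := d0
    obtain ⟨y, hy⟩ := d1
    have hd : (!![A 0 0, x; A 1 0, y] : Matrix (Fin 2) (Fin 2) ℤ).det = 1 := by
      rw [Matrix.det_fin_two_of]
      have : (l : ℤ) * (A 0 0 * y - x * A 1 0) = l * 1 := by
        linear_combination hA - A 0 0 * hy + A 1 0 * hx
      exact mul_left_cancel₀ hl0 this
    refine ⟨some k, ⟨_, hd⟩, ?_⟩
    show A = (!![A 0 0, x; A 1 0, y] : Matrix (Fin 2) (Fin 2) ℤ) * al P l d (some k)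
    simp only [al]
    ext i j
    fin_cases i <;> fin_cases j
    · simp [Matrix.mul_apply, Fin.sum_univ_two]
    · simp only [Matrix.mul_apply, Fin.sum_univ_two, Matrix.of_apply, Matrix.cons_val',
        Matrix.cons_val_zero, Matrix.cons_val_one, Matrix.cons_val_fin_one, Fin.zero_eta,
        Fin.mk_one]
      linear_combination hx
    · simp [Matrix.mul_apply, Fin.sum_univ_two]
    · simp only [Matrix.mul_apply, Fin.sum_univ_two, Matrix.of_apply, Matrix.cons_val',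
        Matrix.cons_val_zero, Matrix.cons_val_one, Matrix.cons_val_fin_one, Fin.zero_eta,
        Fin.mk_one]
      linear_combination hy

theorem prim_col {l : ℕ} (hl : l.Prime) (g : SL(2, ℤ))
    (h : (l : ℤ) ∣ g 0 0 ∧ (l : ℤ) ∣ g 1 0) : False := by
  have hdet := g.det_coe
  rw [Matrix.det_fin_two] at hdet
  have : (l : ℤ) ∣ 1 := by
    rw [← hdet]
    exact dvd_sub (h.1.mul_right _) (h.2.mul_left _)
  have h1 : (l : ℕ) ∣ 1 := by exact_mod_cast this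
  exact hl.one_lt.ne' (Nat.dvd_one.1 h1)

theorem cancel_al {P : ℤ} {l : ℕ} (hl0 : l ≠ 0) {d : SL(2, ℤ)} {i : Option (Fin l)}
    {g g' : SL(2, ℤ)} (e : (g : Matrix (Fin 2) (Fin 2) ℤ) * al P l d i
      = (g' : Matrix (Fin 2) (Fin 2) ℤ) * al P l d i) : g = g' := by
  have h := congrArg (fun X => X * Matrix.adjugate (al P l d i)) e
  simp only [Matrix.mul_assoc, Matrix.mul_adjugate, det_al, Matrix.mul_smul,
    Matrix.mul_one] at h
  have hl0' : (l : ℤ) ≠ 0 := by exact_mod_cast hl0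
  apply Matrix.SpecialLinearGroup.ext
  intro a b
  have h2 := congrFun (congrFun h a) b
  simp only [Matrix.smul_apply, smul_eq_mul] at h2
  exact mul_left_cancel₀ hl0' h2

/-- the coset is unique -/
theorem coset_unique {P : ℤ} {l : ℕ} (hl : l.Prime) (hP : IsCoprime (l : ℤ) P) {d : SL(2, ℤ)}
    {i j : Option (Fin l)} {g g' : SL(2, ℤ)}
    (e : (g : Matrix (Fin 2) (Fin 2) ℤ) * al P l d i
      = (g' : Matrix (Fin 2) (Fin 2) ℤ) * al P l d j) : i = j ∧ g = g' := by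
  have hl0 : l ≠ 0 := hl.ne_zero
  have key : i = j := by
    -- first columns
    have c0 := congrFun (congrFun e 0) 0
    have c1 := congrFun (congrFun e 1) 0
    have s0 := congrFun (congrFun e 0) 1
    have s1 := congrFun (congrFun e 1) 1
    cases i with
    | none =>
      cases j with
      | none => rfl
      | some j =>
        exfalso
        simp [al, Matrix.mul_apply, Fin.sum_univ_two] at c0 c1
        exact prim_col hl g' ⟨⟨g 0 0 * d 0 0 + g 0 1 * d 1 0, by linear_combination -c0⟩,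
          ⟨g 1 0 * d 0 0 + g 1 1 * d 1 0, by linear_combination -c1⟩⟩
    | some i =>
      cases j with
      | none =>
        exfalso
        simp [al, Matrix.mul_apply, Fin.sum_univ_two] at c0 c1
        exact prim_col hl g ⟨⟨g' 0 0 * d 0 0 + g' 0 1 * d 1 0, by linear_combination c0⟩,
          ⟨g' 1 0 * d 0 0 + g' 1 1 * d 1 0, by linear_combination c1⟩⟩
      | some j =>
        simp [al, Matrix.mul_apply, Fin.sum_univ_two] at c0 c1 s0 s1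
        congr 1
        by_contra hne
        have hcop : IsCoprime (l : ℤ) (P * ((i : ℕ) - (j : ℕ) : ℤ)) := by
          refine IsCoprime.mul_right hP ?_
          rw [(Nat.prime_iff_prime_int.1 hl).coprime_iff_not_dvd]
          intro hdvd
          have hne' : ((i : ℕ) - (j : ℕ) : ℤ) ≠ 0 := by
            intro h
            apply hne
            apply Fin.ext
            have : ((i : ℕ) : ℤ) = (j : ℕ) := by linarith
            exact_mod_cast this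
          have := Int.le_of_dvd (by positivity) ((dvd_abs _ _).2 hdvd)
          have hi := i.2
          have hj := j.2
          have : |((i : ℕ) - (j : ℕ) : ℤ)| < l := by
            rw [abs_lt]; constructor <;> omega
          linarith
        apply prim_col hl g
        constructor
        · apply hcop.dvd_of_dvd_mul_right
          refine ⟨g' 0 1 - g 0 1, ?_⟩
          linear_combination s0 - P * (j : ℕ) * c0
        · apply hcop.dvd_of_dvd_mul_right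
          refine ⟨g' 1 1 - g 1 1, ?_⟩
          linear_combination s1 - P * (j : ℕ) * c1
  subst key
  exact ⟨rfl, cancel_al hl0 e⟩

/-- the step for every element of `SL(2, ℤ)` -/
theorem exists_step_SL {P : ℤ} {l : ℕ} (hl : l.Prime) (hP : IsCoprime (l : ℤ) P) (d : SL(2, ℤ))
    (γ : SL(2, ℤ)) (i : Option (Fin l)) : ∃ (j : Option (Fin l)) (g : SL(2, ℤ)),
      al P l d i * (γ : Matrix (Fin 2) (Fin 2) ℤ)
        = (g : Matrix (Fin 2) (Fin 2) ℤ) * al P l d j :=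
  exists_coset hl hP d _ (by rw [Matrix.det_mul, det_al, γ.det_coe, mul_one])

section perm

variable {P Q : ℤ} {l : ℕ} (hl : l.Prime) (hP : IsCoprime (l : ℤ) P)
  (hQ : IsCoprime (l : ℤ) Q) {d : SL(2, ℤ)} (hd : IsDel P Q l d)

include hl hP hQ hd in
theorem exists_step (γ : Gp P Q) (i : Option (Fin l)) :
    ∃ (j : Option (Fin l)) (g : Gp P Q),
      al P l d i * ((γ : SL(2, ℤ)) : Matrix (Fin 2) (Fin 2) ℤ)
        = ((g : SL(2, ℤ)) : Matrix (Fin 2) (Fin 2) ℤ) * al P l d j := by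
  obtain ⟨j, g, hg⟩ := exists_coset (P := P) hl hP d
    (al P l d i * ((γ : SL(2, ℤ)) : Matrix (Fin 2) (Fin 2) ℤ))
    (by rw [Matrix.det_mul, det_al, (γ : SL(2, ℤ)).det_coe, mul_one])
  exact ⟨j, ⟨g, mem_of_eq hP hQ hd γ.2 hg⟩, hg⟩

/-- the permutation attached to `γ` -/
noncomputable def pm (γ : Gp P Q) (i : Option (Fin l)) : Option (Fin l) :=
  (exists_step hl hP hQ hd γ i).choose

/-- the element `γ_i` -/
noncomputable def gm (γ : Gp P Q) (i : Option (Fin l)) : Gp P Q :=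
  (exists_step hl hP hQ hd γ i).choose_spec.choose

/-- `α_i γ = γ_i α_(π i)` -/
theorem step (γ : Gp P Q) (i : Option (Fin l)) :
    al P l d i * ((γ : SL(2, ℤ)) : Matrix (Fin 2) (Fin 2) ℤ)
      = ((gm hl hP hQ hd γ i : SL(2, ℤ)) : Matrix (Fin 2) (Fin 2) ℤ)
        * al P l d (pm hl hP hQ hd γ i) :=
  (exists_step hl hP hQ hd γ i).choose_spec.choose_spec

theorem step_unique (γ : Gp P Q) (i j : Option (Fin l)) (g : Gp P Q)
    (e : al P l d i * ((γ : SL(2, ℤ)) : Matrix (Fin 2) (Fin 2) ℤ)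
      = ((g : SL(2, ℤ)) : Matrix (Fin 2) (Fin 2) ℤ) * al P l d j) :
    pm hl hP hQ hd γ i = j ∧ gm hl hP hQ hd γ i = g := by
  have h := coset_unique hl hP ((step hl hP hQ hd γ i).symm.trans e)
  exact ⟨h.1, Subtype.ext h.2⟩

theorem pm_one (i : Option (Fin l)) : pm hl hP hQ hd 1 i = i ∧ gm hl hP hQ hd 1 i = 1 :=
  step_unique hl hP hQ hd 1 i i 1 (by simp)

theorem pm_mul (γ γ' : Gp P Q) (i : Option (Fin l)) :
    pm hl hP hQ hd (γ * γ') i = pm hl hP hQ hd γ' (pm hl hP hQ hd γ i) ∧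
    gm hl hP hQ hd (γ * γ') i = gm hl hP hQ hd γ i * gm hl hP hQ hd γ' (pm hl hP hQ hd γ i) := by
  apply step_unique
  rw [Subgroup.coe_mul, Matrix.SpecialLinearGroup.coe_mul, ← Matrix.mul_assoc, step hl hP hQ hd γ i,
    Matrix.mul_assoc, step hl hP hQ hd γ', ← Matrix.mul_assoc, Subgroup.coe_mul,
    Matrix.SpecialLinearGroup.coe_mul]

theorem pm_neg (i : Option (Fin l)) :
    pm hl hP hQ hd ⟨-1, neg_one_mem P Q⟩ i = i ∧
    gm hl hP hQ hd ⟨-1, neg_one_mem P Q⟩ i = ⟨-1, neg_one_mem P Q⟩ :=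
  step_unique hl hP hQ hd _ i i _ (by simp)

/-- the permutation as an equivalence -/
noncomputable def pe (γ : Gp P Q) : Equiv.Perm (Option (Fin l)) where
  toFun := pm hl hP hQ hd γ
  invFun := pm hl hP hQ hd γ⁻¹
  left_inv i := by
    have h := (pm_mul hl hP hQ hd γ γ⁻¹ i).1
    rw [mul_inv_cancel, (pm_one hl hP hQ hd i).1] at h
    exact h.symm
  right_inv i := by
    have h := (pm_mul hl hP hQ hd γ⁻¹ γ i).1
    rw [inv_mul_cancel, (pm_one hl hP hQ hd i).1] at h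
    exact h.symm

/-- the Hecke operator on homomorphisms to a commutative group -/
noncomputable def TT {A : Type*} [CommGroup A] (φ : Gp P Q →* A) : Gp P Q →* A where
  toFun γ := ∏ i, φ (gm hl hP hQ hd γ i)
  map_one' := by simp [(pm_one hl hP hQ hd _).2]
  map_mul' γ γ' := by
    simp only [(pm_mul hl hP hQ hd γ γ' _).2, map_mul, Finset.prod_mul_distrib]
    congr 1
    exact Equiv.prod_comp (pe hl hP hQ hd γ) (fun j => φ (gm hl hP hQ hd γ' j))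

theorem TT_neg {A : Type*} [CommGroup A] (φ : Gp P Q →* A)
    (h : φ ⟨-1, neg_one_mem P Q⟩ = 1) :
    TT hl hP hQ hd φ ⟨-1, neg_one_mem P Q⟩ = 1 := by
  show ∏ i, φ (gm hl hP hQ hd ⟨-1, neg_one_mem P Q⟩ i) = 1
  simp [(pm_neg hl hP hQ hd _).2, h]

/-- functions: `h (γ x) = φ γ * h x` for a set with an action of the matrices -/
theorem prod_equivariant {A B X : Type*} [CommGroup A] [CommMonoid B] (ev : A →* B)
    (act : Matrix (Fin 2) (Fin 2) ℤ → X → X)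
    (hact : ∀ P Q : Matrix (Fin 2) (Fin 2) ℤ, 0 < P.det → 0 < Q.det →
      ∀ x, act (P * Q) x = act P (act Q x))
    (φ : Gp P Q →* A) (h : X → B)
    (hh : ∀ (γ : Gp P Q) (x : X), h (act ((γ : SL(2, ℤ)) : Matrix (Fin 2) (Fin 2) ℤ) x)
      = ev (φ γ) * h x) (γ : Gp P Q) (x : X) :
    ∏ i, h (act (al P l d i) (act ((γ : SL(2, ℤ)) : Matrix (Fin 2) (Fin 2) ℤ) x))
      = ev (TT hl hP hQ hd φ γ) * ∏ i, h (act (al P l d i) x) := by
  have hdl : ∀ i, 0 < (al P l d i).det := fun i => by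
    rw [det_al]; exact_mod_cast hl.pos
  have hdg : ∀ g : SL(2, ℤ), 0 < (g : Matrix (Fin 2) (Fin 2) ℤ).det := fun g => by
    rw [g.det_coe]; exact one_pos
  have h1 : ∀ i, h (act (al P l d i) (act ((γ : SL(2, ℤ)) : Matrix (Fin 2) (Fin 2) ℤ) x))
      = ev (φ (gm hl hP hQ hd γ i)) * h (act (al P l d (pe hl hP hQ hd γ i)) x) := by
    intro i
    rw [← hact _ _ (hdl i) (hdg _), step hl hP hQ hd γ i, hact _ _ (hdg _) (hdl _), hh]
    rfl
  simp only [h1, Finset.prod_mul_distrib]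
  congr 1
  · show _ = ev (∏ i, φ (gm hl hP hQ hd γ i))
    rw [map_prod]
  · exact Equiv.prod_comp (pe hl hP hQ hd γ) (fun j => h (act (al P l d j) x))

end perm

end Vale.Agent.P022.H231.L3
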