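import Vale.Agent.P022.H218.L3.Amb
import Vale.Agent.P022.H231.L3.Hec

/-!
# P022-L3, chapter G, row [HK]: the operators `T_ℓ`, `D_ℓ` on `MF G(N, M)`
-/

open UpperHalfPlane ModularForm
open scoped Manifold MatrixGroups ModularForm

noncomputable section

namespace Vale.Agent.P022.H231.L3

open Vale.Agent.P022.H218.L3

/-! ### the pull back by a real matrix -/

theorem comp_mem' (g : GL (Fin 2) ℝ) (hg : 0 < g.det.val) {f : ℍ → ℂ} (hf : f ∈ Hol) :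
    (fun τ => f (g • τ)) ∈ Hol :=
  (mem_Hol.1 hf).comp (UpperHalfPlane.mdifferentiable_smul hg)

theorem det_inv_pos {g : GL (Fin 2) ℝ} (hg : 0 < g.det.val) : 0 < (g⁻¹).det.val := by
  rw [map_inv, Units.val_inv_eq_inv_val]
  exact inv_pos.2 hg

theorem det_mul_pos {g h : GL (Fin 2) ℝ} (hg : 0 < g.det.val) (hh : 0 < h.det.val) :
    0 < (g * h).det.val := by
  rw [map_mul, Units.val_mul]
  exact mul_pos hg hh

/-- `f ↦ f ∘ g` on holomorphic functions -/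
def pbH (g : GL (Fin 2) ℝ) (hg : 0 < g.det.val) : Hol ≃ₐ[ℂ] Hol where
  toFun f := ⟨fun τ => (f : ℍ → ℂ) (g • τ), comp_mem' g hg f.2⟩
  invFun f := ⟨fun τ => (f : ℍ → ℂ) (g⁻¹ • τ), comp_mem' g⁻¹ (det_inv_pos hg) f.2⟩
  left_inv f := Subtype.ext (funext fun τ => by simp)
  right_inv f := Subtype.ext (funext fun τ => by simp)
  map_mul' f g := rfl
  map_add' f g := rfl
  commutes' c := rfl

/-- `f ↦ f ∘ g` on `Mer` -/
def pb (g : GL (Fin 2) ℝ) (hg : 0 < g.det.val) : Mer ≃ₐ[ℂ] Mer :=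
  IsFractionRing.fieldEquivOfAlgEquivHom (A := ℂ) (B := Hol) ℂ Mer (pbH g hg)

theorem pb_algebraMap (g : GL (Fin 2) ℝ) (hg : 0 < g.det.val) (f : Hol) :
    pb g hg (algebraMap Hol Mer f) = algebraMap Hol Mer (pbH g hg f) := by
  simp [pb]

theorem pb_inc (g : GL (Fin 2) ℝ) (hg : 0 < g.det.val) {f : ℍ → ℂ} (hf : f ∈ Hol) :
    pb g hg (inc f hf) = inc (fun τ => f (g • τ)) (comp_mem' g hg hf) := by
  unfold inc
  rw [pb_algebraMap]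
  rfl

/-- two algebra automorphisms of `Mer` which agree on `Hol` are equal -/
theorem ext_Mer {φ ψ : Mer ≃ₐ[ℂ] Mer}
    (h : ∀ f : Hol, φ (algebraMap Hol Mer f) = ψ (algebraMap Hol Mer f)) (x : Mer) :
    φ x = ψ x := by
  obtain ⟨a, b, hb, rfl⟩ := IsFractionRing.div_surjective (A := Hol) x
  rw [map_div₀, map_div₀, h, h]

theorem pb_mul (g h : GL (Fin 2) ℝ) (hg : 0 < g.det.val) (hh : 0 < h.det.val) (x : Mer) :
    pb (g * h) (det_mul_pos hg hh) x = pb h hh (pb g hg x) := by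
  refine ext_Mer (φ := pb (g * h) (det_mul_pos hg hh)) (ψ := (pb g hg).trans (pb h hh))
    (fun f => ?_) x
  rw [AlgEquiv.trans_apply, pb_algebraMap, pb_algebraMap, pb_algebraMap]
  congr 1
  refine Subtype.ext (funext fun τ => ?_)
  show (f : ℍ → ℂ) ((g * h) • τ) = (f : ℍ → ℂ) (g • h • τ)
  rw [mul_smul]

theorem SL_det_pos (γ : SL(2, ℤ)) : 0 < ((γ : GL (Fin 2) ℝ)).det.val := by simp

theorem pb_SL (γ : SL(2, ℤ)) (x : Mer) : pb (γ : GL (Fin 2) ℝ) (SL_det_pos γ) x = act γ⁻¹ x := by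
  refine ext_Mer (φ := pb (γ : GL (Fin 2) ℝ) (SL_det_pos γ)) (ψ := act γ⁻¹) (fun f => ?_) x
  rw [pb_algebraMap, act_algebraMap]
  congr 1
  refine Subtype.ext (funext fun τ => ?_)
  show (f : ℍ → ℂ) ((γ : GL (Fin 2) ℝ) • τ) = (f : ℍ → ℂ) (γ⁻¹⁻¹ • τ)
  rw [inv_inv]
  rfl

theorem slash_mem' {f : ℍ → ℂ} (hf : f ∈ Hol) (k : ℤ) (g : GL (Fin 2) ℝ) : f ∣[k] g ∈ Hol :=
  MDifferentiable.slash hf k g

theorem slash_ne_zero' {k : ℤ} {h : ℍ → ℂ} (h0 : h ≠ 0) (g : GL (Fin 2) ℝ) : h ∣[k] g ≠ 0 := by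
  rwa [Ne, SlashAction.slash_eq_zero_iff]

theorem pb_div (g : GL (Fin 2) ℝ) (hg : 0 < g.det.val) (k : ℤ) {a b : ℍ → ℂ} (ha : a ∈ Hol)
    (hb : b ∈ Hol) (b0 : b ≠ 0) :
    pb g hg (inc a ha / inc b hb) =
      inc (a ∣[k] g) (slash_mem' ha k g) / inc (b ∣[k] g) (slash_mem' hb k g) := by
  have n1 : inc (fun τ => b (g • τ)) (comp_mem' g hg hb) ≠ 0 := by
    rw [← pb_inc g hg hb]
    intro h'
    rw [map_eq_zero_iff _ (pb g hg).injective, inc_eq_zero] at h'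
    exact b0 h'
  have n2 : inc (b ∣[k] g) (slash_mem' hb k _) ≠ 0 := by
    intro h'
    exact slash_ne_zero' b0 _ ((inc_eq_zero _).1 h')
  rw [map_div₀, pb_inc, pb_inc, div_eq_div_iff n1 n2, ← inc_mul, ← inc_mul]
  apply inc_congr
  funext τ
  have hs : ∀ z, UpperHalfPlane.σ g z = z := by
    intro z
    simp only [UpperHalfPlane.σ, if_pos hg]
    rfl
  simp only [Pi.mul_apply, ModularForm.slash_apply, hs]
  ring

/-! ### the real matrix of an integral matrix -/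

theorem det_map (A : Matrix (Fin 2) (Fin 2) ℤ) :
    (A.map (Int.cast : ℤ → ℝ)).det = (A.det : ℝ) := by
  rw [Matrix.det_fin_two, Matrix.det_fin_two]
  simp

/-- an integral matrix with non-zero determinant as a real matrix -/
def gl (A : Matrix (Fin 2) (Fin 2) ℤ) (hA : 0 < A.det) : GL (Fin 2) ℝ :=
  Matrix.GeneralLinearGroup.mkOfDetNeZero (A.map (Int.cast : ℤ → ℝ)) (by
    rw [det_map]; exact_mod_cast hA.ne')

theorem gl_coe (A : Matrix (Fin 2) (Fin 2) ℤ) (hA : 0 < A.det) :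
    (gl A hA : Matrix (Fin 2) (Fin 2) ℝ) = A.map (Int.cast : ℤ → ℝ) := rfl

theorem gl_pos (A : Matrix (Fin 2) (Fin 2) ℤ) (hA : 0 < A.det) : 0 < (gl A hA).det.val := by
  show 0 < (A.map (Int.cast : ℤ → ℝ)).det
  rw [det_map]; exact_mod_cast hA

theorem gl_mul {A B : Matrix (Fin 2) (Fin 2) ℤ} (hA : 0 < A.det) (hB : 0 < B.det)
    (hAB : 0 < (A * B).det) : gl (A * B) hAB = gl A hA * gl B hB := by
  apply Units.ext
  rw [Units.val_mul]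
  show (A * B).map (Int.cast : ℤ → ℝ) = A.map (Int.cast : ℤ → ℝ) * B.map (Int.cast : ℤ → ℝ)
  ext i j
  simp [Matrix.mul_apply]

theorem SL_pos (γ : SL(2, ℤ)) : 0 < (γ : Matrix (Fin 2) (Fin 2) ℤ).det := by
  rw [γ.det_coe]; exact one_pos

theorem gl_SL (γ : SL(2, ℤ)) :
    gl (γ : Matrix (Fin 2) (Fin 2) ℤ) (SL_pos γ) = (γ : GL (Fin 2) ℝ) := by
  apply Units.ext
  ext i j
  show ((γ : Matrix (Fin 2) (Fin 2) ℤ) i j : ℝ) = _
  simp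

/-- the pull back by an integral matrix -/
def pbz (A : Matrix (Fin 2) (Fin 2) ℤ) (hA : 0 < A.det) : Mer ≃ₐ[ℂ] Mer := pb (gl A hA) (gl_pos A hA)

theorem pb_congr {g h : GL (Fin 2) ℝ} (e : g = h) (hg : 0 < g.det.val) (hh : 0 < h.det.val)
    (x : Mer) : pb g hg x = pb h hh x := by
  subst e; rfl

theorem pbz_congr {A B : Matrix (Fin 2) (Fin 2) ℤ} (e : A = B) (hA : 0 < A.det) (hB : 0 < B.det)
    (x : Mer) : pbz A hA x = pbz B hB x := by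
  subst e; rfl

theorem pbz_mul {A B : Matrix (Fin 2) (Fin 2) ℤ} (hA : 0 < A.det) (hB : 0 < B.det)
    (hAB : 0 < (A * B).det) (x : Mer) : pbz (A * B) hAB x = pbz B hB (pbz A hA x) := by
  unfold pbz
  rw [← pb_mul]
  exact pb_congr (gl_mul hA hB hAB) _ _ x

theorem pbz_SL (γ : SL(2, ℤ)) (x : Mer) :
    pbz (γ : Matrix (Fin 2) (Fin 2) ℤ) (SL_pos γ) x = act γ⁻¹ x := by
  unfold pbz
  rw [← pb_SL]
  exact pb_congr (gl_SL γ) _ _ x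

/-! ### the product over the cosets -/

section coset

variable {P Q : ℤ} {l : ℕ} (hl : l.Prime) (hP : IsCoprime (l : ℤ) P)
  (hQ : IsCoprime (l : ℤ) Q) {d : SL(2, ℤ)} (hd : IsDel P Q l d)

theorem al_pos {P : ℤ} {l : ℕ} (h0 : 0 < l) (d : SL(2, ℤ)) (i : Option (Fin l)) :
    0 < (al P l d i).det := by
  rw [det_al]; exact_mod_cast h0

/-- `g_i := h ∣[k] α_i` -/
def sl (h0 : 0 < l) (P : ℤ) (d : SL(2, ℤ)) (k : ℤ) (h : ℍ → ℂ) (i : Option (Fin l)) : ℍ → ℂ :=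
  h ∣[k] gl (al P l d i) (al_pos h0 d i)

theorem slash_SL_gl (k : ℤ) (h : ℍ → ℂ) (γ : SL(2, ℤ)) {A : Matrix (Fin 2) (Fin 2) ℤ}
    (hA : 0 < A.det) (hA' : 0 < ((γ : Matrix (Fin 2) (Fin 2) ℤ) * A).det) :
    h ∣[k] gl ((γ : Matrix (Fin 2) (Fin 2) ℤ) * A) hA' = (h ∣[k] γ) ∣[k] gl A hA := by
  rw [gl_mul (SL_pos γ) hA hA', SlashAction.slash_mul, gl_SL]
  rfl

theorem slash_gl_SL (k : ℤ) (h : ℍ → ℂ) (γ : SL(2, ℤ)) {A : Matrix (Fin 2) (Fin 2) ℤ}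
    (hA : 0 < A.det) (hA' : 0 < (A * (γ : Matrix (Fin 2) (Fin 2) ℤ)).det) :
    h ∣[k] gl (A * (γ : Matrix (Fin 2) (Fin 2) ℤ)) hA' = (h ∣[k] gl A hA) ∣[k] γ := by
  rw [gl_mul hA (SL_pos γ) hA', SlashAction.slash_mul, gl_SL]
  rfl

theorem gl_congr {A B : Matrix (Fin 2) (Fin 2) ℤ} (e : A = B) (hA : 0 < A.det)
    (hB : 0 < B.det) : gl A hA = gl B hB := by subst e; rfl

/-- the translates of `h ∣ α_i` by `SL(2, ℤ)` are bounded at infinity -/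
theorem sl_bdd (h0 : 0 < l) (hl : l.Prime) (hP : IsCoprime (l : ℤ) P) (d : SL(2, ℤ)) {k : ℤ}
    {h : ℍ → ℂ} (hh : Bdd k h) (i : Option (Fin l)) : Bdd k (sl h0 P d k h i) := by
  refine ⟨slash_mem' hh.1 k _, fun γ => ?_⟩
  obtain ⟨j, g, e⟩ := exists_step_SL hl hP d γ i
  have hp1 : 0 < (al P l d i * (γ : Matrix (Fin 2) (Fin 2) ℤ)).det := by
    rw [Matrix.det_mul]; exact mul_pos (al_pos h0 d i) (SL_pos γ)
  have hp2 : 0 < ((g : Matrix (Fin 2) (Fin 2) ℤ) * al P l d j).det := by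
    rw [← e]; exact hp1
  unfold sl
  rw [← slash_gl_SL k h γ (al_pos h0 d i) hp1, gl_congr e hp1 hp2,
    slash_SL_gl k h g (al_pos h0 d j) hp2]
  cases j with
  | some j =>
    refine IsBoundedAtImInfty.slash k ?_ (hh.2 g)
    simp [gl_coe, al]
  | none =>
    have hp3 : 0 < (!![(l : ℤ), 0; 0, 1]).det := by
      rw [Matrix.det_fin_two_of]; simpa using h0
    have hp4 : 0 < ((d : Matrix (Fin 2) (Fin 2) ℤ) * !![(l : ℤ), 0; 0, 1]).det := by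
      rw [Matrix.det_mul]; exact mul_pos (SL_pos d) hp3
    have e4 : gl (al P l d none) (al_pos h0 d none) =
        gl ((d : Matrix (Fin 2) (Fin 2) ℤ) * !![(l : ℤ), 0; 0, 1]) hp4 := rfl
    rw [e4, slash_SL_gl k _ d hp3 hp4, ← SlashAction.slash_mul]
    refine IsBoundedAtImInfty.slash k ?_ (hh.2 _)
    simp [gl_coe]

include hl hP hQ hd in
theorem sl_slash (h0 : 0 < l) {k : ℤ} {h : ℍ → ℂ} (hh : ∀ γ ∈ Gp P Q, h ∣[k] γ = h)
    (γ : Gp P Q) (i : Option (Fin l)) :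
    sl h0 P d k h i ∣[k] (γ : SL(2, ℤ)) = sl h0 P d k h (pm hl hP hQ hd γ i) := by
  have e := step hl hP hQ hd γ i
  have hp1 : 0 < (al P l d i * ((γ : SL(2, ℤ)) : Matrix (Fin 2) (Fin 2) ℤ)).det := by
    rw [Matrix.det_mul]; exact mul_pos (al_pos h0 d i) (SL_pos γ)
  have hp2 : 0 < (((gm hl hP hQ hd γ i : SL(2, ℤ)) : Matrix (Fin 2) (Fin 2) ℤ) *
      al P l d (pm hl hP hQ hd γ i)).det := by
    rw [← e]; exact hp1
  unfold sl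
  rw [← slash_gl_SL k h γ (al_pos h0 d i) hp1, gl_congr e hp1 hp2,
    slash_SL_gl k h _ (al_pos h0 d _) hp2, hh _ (gm hl hP hQ hd γ i).2]

include hl hP hQ hd in
/-- the product of the `h ∣ α_i` is a form -/
theorem prod_isMF (h0 : 0 < l) {k : ℤ} {h : ℍ → ℂ} (hh : IsMF (Gp P Q) k h) :
    IsMF (Gp P Q) (k * (Finset.univ : Finset (Option (Fin l))).card) (∏ i, sl h0 P d k h i) := by
  refine (Bdd.prod _ fun i _ => sl_bdd h0 hl hP d hh.toBdd i).isMF fun γ hγ => ?_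
  rw [prod_slash_SL]
  simp_rw [sl_slash hl hP hQ hd h0 hh.slash ⟨γ, hγ⟩]
  exact Equiv.prod_comp (pe hl hP hQ hd ⟨γ, hγ⟩) (fun j => sl h0 P d k h j)

theorem inc_prod {ι : Type*} (s : Finset ι) (f : ι → ℍ → ℂ) (hf : ∀ i, f i ∈ Hol)
    (hs : ∏ i ∈ s, f i ∈ Hol) : inc (∏ i ∈ s, f i) hs = ∏ i ∈ s, inc (f i) (hf i) := by
  have h1 : (⟨∏ i ∈ s, f i, hs⟩ : Hol) = ∏ i ∈ s, (⟨f i, hf i⟩ : Hol) := by
    apply Subtype.ext
    rw [SubmonoidClass.coe_finset_prod]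
  unfold inc
  rw [h1, map_prod]

include hl hP hQ hd in
theorem TN_mem (h0 : 0 < l) {x : Mer} (hx : x ∈ MF (Gp P Q)) :
    ∏ i, pbz (al P l d i) (al_pos h0 d i) x ∈ MF (Gp P Q) := by
  obtain ⟨k, g, h, hg, hh, hn, rfl⟩ := hx
  refine ⟨_, _, _, prod_isMF hl hP hQ hd h0 hg, prod_isMF hl hP hQ hd h0 hh, ?_, ?_⟩
  · intro e
    obtain ⟨i, -, hi⟩ := (UpperHalfPlane.prod_eq_zero_iff
      (fun i _ => (slash_mem' hh.hol k (gl (al P l d i) (al_pos h0 d i))))).1 e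
    exact slash_ne_zero' hn _ hi
  · rw [inc_prod _ (sl h0 P d k g) (fun i => slash_mem' hg.hol k _),
      inc_prod _ (sl h0 P d k h) (fun i => slash_mem' hh.hol k _), ← Finset.prod_div_distrib]
    exact Finset.prod_congr rfl fun i _ => pb_div _ _ k hg.hol hh.hol hn

/-- **the multiplicative Hecke operator** -/
def TN (h0 : 0 < l) : MF (Gp P Q) →* MF (Gp P Q) where
  toFun x := ⟨∏ i, pbz (al P l d i) (al_pos h0 d i) x, TN_mem hl hP hQ hd h0 x.2⟩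
  map_one' := Subtype.ext (by simp)
  map_mul' x y := Subtype.ext (by simp [Finset.prod_mul_distrib])

theorem TN_coe (h0 : 0 < l) (x : MF (Gp P Q)) :
    ((TN hl hP hQ hd h0 x : MF (Gp P Q)) : Mer) =
      ∏ i, pbz (al P l d i) (al_pos h0 d i) (x : Mer) := rfl

theorem act_congr {Γ : Subgroup SL(2, ℤ)} {d d' : SL(2, ℤ)} (h : d * d'⁻¹ ∈ Γ) {x : Mer}
    (hx : x ∈ MF Γ) : act d⁻¹ x = act d'⁻¹ x := by
  have h2 : act (d' * d⁻¹) x = x := by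
    have := act_eq_self hx (Γ.inv_mem h)
    rwa [mul_inv_rev, inv_inv] at this
  have h3 : act d'⁻¹ (act (d' * d⁻¹) x) = act d⁻¹ x := by
    rw [← AlgEquiv.mul_apply, ← map_mul, inv_mul_cancel_left]
  rw [← h3, h2]

theorem diag_pos {l : ℕ} (h0 : 0 < l) :
    0 < (!![(l : ℤ), 0; 0, 1] : Matrix (Fin 2) (Fin 2) ℤ).det := by
  rw [Matrix.det_fin_two_of]; simpa using h0

theorem pbz_none (h0 : 0 < l) (c : SL(2, ℤ)) (x : Mer) :
    pbz (al P l c none) (al_pos h0 c none) x = pbz (!![(l : ℤ), 0; 0, 1]) (diag_pos h0)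
      (act c⁻¹ x) := by
  have hp4 : 0 < ((c : Matrix (Fin 2) (Fin 2) ℤ) * !![(l : ℤ), 0; 0, 1]).det := by
    rw [Matrix.det_mul]; exact mul_pos (SL_pos c) (diag_pos h0)
  rw [← pbz_SL, ← pbz_mul (SL_pos c) (diag_pos h0) hp4]
  rfl

/-- the factors with `δ` do not depend on the choice of `δ` -/
theorem pbz_none_congr (h0 : 0 < l) {d d' : SL(2, ℤ)} (hd : IsDel P Q l d) (hd' : IsDel P Q l d')
    {x : Mer} (hx : x ∈ MF (Gp P Q)) :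
    pbz (al P l d none) (al_pos h0 d none) x = pbz (al P l d' none) (al_pos h0 d' none) x := by
  rw [pbz_none h0, pbz_none h0, act_congr (hd.mul_inv hd') hx]

end coset

/-! ### the diamond operators -/

/-- the automorphism of `MF Γ` induced by `f ↦ f ∘ d` if `d` normalizes `Γ` -/
def dia {Γ : Subgroup SL(2, ℤ)} (d : SL(2, ℤ)) (h1 : ∀ γ ∈ Γ, d * γ * d⁻¹ ∈ Γ)
    (h2 : ∀ γ ∈ Γ, d⁻¹ * γ * d ∈ Γ) : MF Γ ≃ₐ[ℂ] MF Γ where
  toFun x := ⟨act d⁻¹ x, act_mem d⁻¹ (by simpa using h1) x.2⟩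
  invFun x := ⟨act d x, act_mem d (by simpa using h2) x.2⟩
  left_inv x := Subtype.ext (by
    show act d (act d⁻¹ (x : Mer)) = x
    rw [← AlgEquiv.mul_apply, ← map_mul, mul_inv_cancel, map_one]; rfl)
  right_inv x := Subtype.ext (by
    show act d⁻¹ (act d (x : Mer)) = x
    rw [← AlgEquiv.mul_apply, ← map_mul, inv_mul_cancel, map_one]; rfl)
  map_mul' x y := Subtype.ext (by simp)
  map_add' x y := Subtype.ext (by simp)
  commutes' c := Subtype.ext (by simp)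

theorem dia_coe {Γ : Subgroup SL(2, ℤ)} (d : SL(2, ℤ)) (h1 : ∀ γ ∈ Γ, d * γ * d⁻¹ ∈ Γ)
    (h2 : ∀ γ ∈ Γ, d⁻¹ * γ * d ∈ Γ) (x : MF Γ) : ((dia d h1 h2 x : MF Γ) : Mer) = act d⁻¹ x := rfl

open scoped IntermediateField in
theorem fix_adjoin {K : Type*} [Field K] [Algebra ℂ K] {p : K} (ψ : K ≃ₐ[ℂ] K) (h : ψ p = p)
    (x : K) (hx : x ∈ ℂ⟮p⟯) : ψ x = x := by
  induction hx using IntermediateField.adjoin_induction with
  | mem x hx => rw [Set.mem_singleton_iff.1 hx]; exact h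
  | algebraMap c => simp
  | add x y _ _ h1 h2 => rw [map_add, h1, h2]
  | inv x _ h1 => rw [map_inv₀, h1]
  | mul x y _ _ h1 h2 => rw [map_mul, h1, h2]

open scoped IntermediateField in
/-- an automorphism which fixes `p`, over `ℂ(p)` -/
def ovr {K : Type*} [Field K] [Algebra ℂ K] (p : K) (ψ : K ≃ₐ[ℂ] K) (h : ψ p = p) :
    K ≃ₐ[ℂ⟮p⟯] K :=
  AlgEquiv.ofRingEquiv (f := (ψ : K ≃+* K)) fun x => fix_adjoin ψ h x x.2

open scoped IntermediateField in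
theorem ovr_apply {K : Type*} [Field K] [Algebra ℂ K] (p : K) (ψ : K ≃ₐ[ℂ] K) (h : ψ p = p)
    (x : K) : ovr p ψ h x = ψ x := rfl

section choice

/-- the chosen diamond matrix `δ_ℓ` -/
def dl (P Q : ℤ) (ℓ : ℕ) : SL(2, ℤ) :=
  open Classical in
  if h : IsCoprime (ℓ : ℤ) (P * Q) then (IsDel.exists P Q ℓ h).choose else 1

theorem isDel_dl {P Q : ℤ} {ℓ : ℕ} (h : IsCoprime (ℓ : ℤ) (P * Q)) : IsDel P Q ℓ (dl P Q ℓ) := by
  unfold dl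
  rw [dif_pos h]
  exact (IsDel.exists P Q ℓ h).choose_spec

theorem isDel_dl' (P Q : ℤ) (ℓ : ℕ) : ∃ a : ℤ, IsDel P Q a (dl P Q ℓ) := by
  by_cases h : IsCoprime (ℓ : ℤ) (P * Q)
  · exact ⟨ℓ, isDel_dl h⟩
  · refine ⟨1, ?_⟩
    unfold dl
    rw [dif_neg h]
    exact ⟨by simp, by simp, by simp⟩

/-- `D_ℓ` on `MF G(N, M)` over `ℂ` -/
def DC (P Q : ℤ) (ℓ : ℕ) : MF (Gp P Q) ≃ₐ[ℂ] MF (Gp P Q) :=
  dia (dl P Q ℓ) (fun _ hγ => (isDel_dl' P Q ℓ).choose_spec.conj hγ)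
    (fun _ hγ => (isDel_dl' P Q ℓ).choose_spec.conj' hγ)

theorem DC_coe (P Q : ℤ) (ℓ : ℕ) (x : MF (Gp P Q)) :
    ((DC P Q ℓ x : MF (Gp P Q)) : Mer) = act (dl P Q ℓ)⁻¹ x := rfl

/-- any diamond matrix can be used -/
theorem DC_coe' {P Q : ℤ} {ℓ : ℕ} (h : IsCoprime (ℓ : ℤ) (P * Q)) {d : SL(2, ℤ)}
    (hd : IsDel P Q ℓ d) (x : MF (Gp P Q)) :
    ((DC P Q ℓ x : MF (Gp P Q)) : Mer) = act d⁻¹ x :=
  act_congr ((isDel_dl h).mul_inv hd) x.2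

theorem DC_fix {P Q : ℤ} {Γ0 : Subgroup SL(2, ℤ)} (h0 : ∀ γ : SL(2, ℤ), Q ∣ γ 1 0 → γ ∈ Γ0)
    {p : MF (Gp P Q)} (hp : (p : Mer) ∈ MF Γ0) (ℓ : ℕ) : DC P Q ℓ p = p := by
  apply Subtype.ext
  rw [DC_coe]
  exact act_eq_self hp (Γ0.inv_mem (h0 _ (isDel_dl' P Q ℓ).choose_spec.1))

open scoped IntermediateField in
/-- **`D_ℓ` over `ℂ(p)`** -/
def DK {P Q : ℤ} {Γ0 : Subgroup SL(2, ℤ)} (h0 : ∀ γ : SL(2, ℤ), Q ∣ γ 1 0 → γ ∈ Γ0)
    {p : MF (Gp P Q)} (hp : (p : Mer) ∈ MF Γ0) (ℓ : ℕ) :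
    MF (Gp P Q) ≃ₐ[ℂ⟮p⟯] MF (Gp P Q) := ovr p (DC P Q ℓ) (DC_fix h0 hp ℓ)

theorem DK_apply {P Q : ℤ} {Γ0 : Subgroup SL(2, ℤ)} (h0 : ∀ γ : SL(2, ℤ), Q ∣ γ 1 0 → γ ∈ Γ0)
    {p : MF (Gp P Q)} (hp : (p : Mer) ∈ MF Γ0) (ℓ : ℕ) (x : MF (Gp P Q)) :
    DK h0 hp ℓ x = DC P Q ℓ x := rfl

/-- `ℓ` is a good prime -/
structure Gd (P Q : ℤ) (ℓ : ℕ) : Prop where
  pr : ℓ.Prime
  cP : IsCoprime (ℓ : ℤ) P
  cQ : IsCoprime (ℓ : ℤ) Q

theorem Gd.del {P Q : ℤ} {ℓ : ℕ} (h : Gd P Q ℓ) : IsDel P Q ℓ (dl P Q ℓ) :=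
  isDel_dl (h.cP.mul_right h.cQ)

/-- **`T_ℓ` on the non-zero elements of `MF G(N, M)`** -/
def TK (P Q : ℤ) (ℓ : ℕ) : (MF (Gp P Q))ˣ →* (MF (Gp P Q))ˣ :=
  open Classical in
  if h : Gd P Q ℓ then Units.map (TN h.pr h.cP h.cQ h.del h.pr.pos) else 1

theorem TK_coe {P Q : ℤ} {ℓ : ℕ} (h : Gd P Q ℓ) (f : (MF (Gp P Q))ˣ) :
    (((TK P Q ℓ f : (MF (Gp P Q))ˣ) : MF (Gp P Q)) : Mer) =
      ∏ i, pbz (al P ℓ (dl P Q ℓ) i) (al_pos h.pr.pos _ i) ((f : MF (Gp P Q)) : Mer) := by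
  unfold TK
  rw [dif_pos h]
  rfl

/-- any diamond matrix can be used -/
theorem TK_coe' {P Q : ℤ} {ℓ : ℕ} (h : Gd P Q ℓ) {d : SL(2, ℤ)} (hd : IsDel P Q ℓ d)
    (f : (MF (Gp P Q))ˣ) :
    (((TK P Q ℓ f : (MF (Gp P Q))ˣ) : MF (Gp P Q)) : Mer) =
      ∏ i, pbz (al P ℓ d i) (al_pos h.pr.pos _ i) ((f : MF (Gp P Q)) : Mer) := by
  rw [TK_coe h]
  refine Finset.prod_congr rfl fun i _ => ?_
  cases i with
  | some j => rfl
  | none => exact pbz_none_congr h.pr.pos h.del hd (f : MF (Gp P Q)).2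

end choice

end Vale.Agent.P022.H231.L3
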