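import Vale.Agent.P022.H231.L3.Hk

/-!
# P022-L3, chapter G, row [HK]: the Kummer characters of `T_ℓ f`, `D_ℓ f`
-/

open UpperHalfPlane ModularForm
open scoped Manifold MatrixGroups ModularForm IntermediateField

noncomputable section

namespace Vale.Agent.P022.H231.L3

open Vale.Agent.P022.H218.L3

variable {P Q : ℤ} {l : ℕ}

/-- `h` transforms by the character `φ` under `G(N, M)` -/
def HasChr {Γ : Subgroup SL(2, ℤ)} (φ : Γ →* ℂˣ) (h : Mer) : Prop :=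
  ∀ γ : Γ, act (γ : SL(2, ℤ)) h = ((φ γ : ℂˣ) : ℂ) • h

theorem HasChr.inv {Γ : Subgroup SL(2, ℤ)} {φ : Γ →* ℂˣ} {h : Mer} (hh : HasChr φ h) (γ : Γ) :
    act (γ : SL(2, ℤ))⁻¹ h = (((φ γ)⁻¹ : ℂˣ) : ℂ) • h := by
  have := hh γ⁻¹
  rwa [map_inv, Subgroup.coe_inv] at this

/-- the product over the cosets -/
def TM (h0 : 0 < l) (P : ℤ) (d : SL(2, ℤ)) (h : Mer) : Mer :=
  ∏ i, pbz (al P l d i) (al_pos h0 d i) h

theorem TM_pow (h0 : 0 < l) (P : ℤ) (d : SL(2, ℤ)) (h : Mer) (N : ℕ) :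
    TM h0 P d (h ^ N) = TM h0 P d h ^ N := by
  unfold TM
  rw [← Finset.prod_pow]
  exact Finset.prod_congr rfl fun i _ => map_pow _ _ _

theorem TM_ne_zero (h0 : 0 < l) (P : ℤ) (d : SL(2, ℤ)) {h : Mer} (hh : h ≠ 0) :
    TM h0 P d h ≠ 0 :=
  Finset.prod_ne_zero_iff.2 fun _ _ => (map_ne_zero _).2 hh

theorem TK_TM (h : Gd P Q l) {d : SL(2, ℤ)} (hd : IsDel P Q l d) (f : (MF (Gp P Q))ˣ) :
    (((TK P Q l f : (MF (Gp P Q))ˣ) : MF (Gp P Q)) : Mer) =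
      TM h.pr.pos P d ((f : MF (Gp P Q)) : Mer) := TK_coe' h hd f

section

variable (hl : l.Prime) (hP : IsCoprime (l : ℤ) P)
  (hQ : IsCoprime (l : ℤ) Q) {d : SL(2, ℤ)} (hd : IsDel P Q l d)

/-- **the character of `T_ℓ h` is `T_ℓ φ`** -/
theorem chr_T {φ : Gp P Q →* ℂˣ} {h : Mer} (hh : HasChr φ h) :
    HasChr (TT hl hP hQ hd φ) (TM hl.pos P d h) := by
  have key : ∀ γ : Gp P Q, act (γ : SL(2, ℤ))⁻¹ (TM hl.pos P d h) =
      (((TT hl hP hQ hd φ γ)⁻¹ : ℂˣ) : ℂ) • TM hl.pos P d h := by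
    intro γ
    have h1 : ∀ i, act (γ : SL(2, ℤ))⁻¹ (pbz (al P l d i) (al_pos hl.pos d i) h) =
        (((φ (gm hl hP hQ hd γ i))⁻¹ : ℂˣ) : ℂ) •
          pbz (al P l d (pm hl hP hQ hd γ i)) (al_pos hl.pos d _) h := by
      intro i
      have e := step hl hP hQ hd γ i
      have hp1 : 0 < (al P l d i * ((γ : SL(2, ℤ)) : Matrix (Fin 2) (Fin 2) ℤ)).det := by
        rw [Matrix.det_mul]; exact mul_pos (al_pos hl.pos d i) (SL_pos γ)
      have hp2 : 0 < (((gm hl hP hQ hd γ i : SL(2, ℤ)) : Matrix (Fin 2) (Fin 2) ℤ) *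
          al P l d (pm hl hP hQ hd γ i)).det := by
        rw [← e]; exact hp1
      rw [← pbz_SL, ← pbz_mul (al_pos hl.pos d i) (SL_pos γ) hp1, pbz_congr e hp1 hp2,
        pbz_mul (SL_pos _) (al_pos hl.pos d _) hp2, pbz_SL, hh.inv, map_smul]
    unfold TM
    rw [map_prod]
    simp_rw [h1]
    have h2 : ∀ (c : Option (Fin l) → ℂ) (x : Option (Fin l) → Mer),
        ∏ i, c i • x i = (∏ i, c i) • ∏ i, x i := by
      intro c x
      simp only [Algebra.smul_def, Finset.prod_mul_distrib, map_prod]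
    rw [h2]
    congr 1
    · show _ = (((∏ i, φ (gm hl hP hQ hd γ i))⁻¹ : ℂˣ) : ℂ)
      rw [← Finset.prod_inv_distrib, Units.coe_prod]
    · exact Equiv.prod_comp (pe hl hP hQ hd γ)
        (fun j => pbz (al P l d j) (al_pos hl.pos d j) h)
  intro γ
  have := key γ⁻¹
  rwa [Subgroup.coe_inv, inv_inv, map_inv, inv_inv] at this

end

/-- the character `γ ↦ φ(d γ d⁻¹)` -/
def cj {Γ : Subgroup SL(2, ℤ)} (d : SL(2, ℤ)) (h1 : ∀ γ ∈ Γ, d * γ * d⁻¹ ∈ Γ) : Γ →* Γ where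
  toFun γ := ⟨d * γ * d⁻¹, h1 γ γ.2⟩
  map_one' := Subtype.ext (by simp)
  map_mul' γ δ := Subtype.ext (by
    show d * (γ * δ) * d⁻¹ = (d * γ * d⁻¹) * (d * δ * d⁻¹)
    group)

/-- **the character of `h ∘ d` is `γ ↦ φ(d γ d⁻¹)`** -/
theorem chr_D {Γ : Subgroup SL(2, ℤ)} (d : SL(2, ℤ)) (h1 : ∀ γ ∈ Γ, d * γ * d⁻¹ ∈ Γ)
    {φ : Γ →* ℂˣ} {h : Mer} (hh : HasChr φ h) : HasChr (φ.comp (cj d h1)) (act d⁻¹ h) := by
  intro γ
  have e : (γ : SL(2, ℤ)) * d⁻¹ = d⁻¹ * (cj d h1 γ : SL(2, ℤ)) := by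
    show (γ : SL(2, ℤ)) * d⁻¹ = d⁻¹ * (d * γ * d⁻¹)
    group
  rw [← AlgEquiv.mul_apply, ← map_mul, e, map_mul, AlgEquiv.mul_apply, hh, map_smul]
  rfl

/-- the `N`-th roots of unity of `Mer` are constants -/
theorem const_of_pow {N : ℕ} (hN : 0 < N) {x : Mer} (hx : x ^ N = 1) :
    ∃ c : ℂ, x = algebraMap ℂ Mer c := by
  have hint : IsIntegral ℂ x := by
    refine ⟨Polynomial.X ^ N - 1, Polynomial.monic_X_pow_sub_C 1 hN.ne', ?_⟩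
    simp [hx]
  have h1 : (minpoly ℂ x).degree = 1 :=
    IsAlgClosed.degree_eq_one_of_irreducible ℂ (minpoly.irreducible hint)
  obtain ⟨c, hc⟩ := minpoly.mem_range_of_degree_eq_one ℂ x h1
  exact ⟨c, hc.symm⟩

/-- the character does not depend on the root -/
theorem chr_unique {Γ : Subgroup SL(2, ℤ)} {N : ℕ} (hN : 0 < N) {φ ψ : Γ →* ℂˣ} {h k : Mer}
    (h0 : h ≠ 0) (hh : HasChr φ h) (hk : HasChr ψ k) (e : k ^ N = h ^ N) : φ = ψ := by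
  have h1 : (k / h) ^ N = 1 := by
    rw [div_pow, e, div_self (pow_ne_zero _ h0)]
  obtain ⟨c, hc⟩ := const_of_pow hN h1
  have hk' : k = c • h := by
    rw [Algebra.smul_def, ← hc, div_mul_cancel₀ _ h0]
  have hk0 : k ≠ 0 := by
    intro k0
    rw [k0, zero_pow hN.ne'] at e
    exact pow_ne_zero _ h0 e.symm
  apply MonoidHom.ext
  intro γ
  apply Units.ext
  have e1 := hk γ
  rw [hk', map_smul, hh γ, smul_comm, ← hk'] at e1
  have e2 : ((φ γ : ℂ) - (ψ γ : ℂ)) • k = 0 := by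
    rw [sub_smul, e1, sub_self]
  rcases smul_eq_zero.1 e2 with h | h
  · exact sub_eq_zero.1 h
  · exact absurd h hk0

/-- `ψ = T_ℓ φ` for the characters of `f` and `T_ℓ f` -/
theorem chr_TK (h : Gd P Q l) {d : SL(2, ℤ)} (hd : IsDel P Q l d) {N : ℕ} (hN : 0 < N)
    (f : (MF (Gp P Q))ˣ) {x y : Mer} (hx : x ^ N = ((f : MF (Gp P Q)) : Mer))
    (hy : y ^ N = (((TK P Q l f : (MF (Gp P Q))ˣ) : MF (Gp P Q)) : Mer))
    {φ ψ : Gp P Q →* ℂˣ} (hφ : HasChr φ x) (hψ : HasChr ψ y) :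
    TT h.pr h.cP h.cQ hd φ = ψ := by
  have hf : ((f : MF (Gp P Q)) : Mer) ≠ 0 := fun e => f.ne_zero (Subtype.ext e)
  have hx0 : x ≠ 0 := by
    rintro rfl
    rw [zero_pow hN.ne'] at hx
    exact hf hx.symm
  refine chr_unique hN (TM_ne_zero h.pr.pos P d hx0) (chr_T h.pr h.cP h.cQ hd hφ) hψ ?_
  rw [hy, TK_TM h hd, ← TM_pow, hx]

/-- `χ = D_ℓ φ` for the characters of `f` and `D_ℓ f` -/
theorem chr_DC (hc : IsCoprime (l : ℤ) (P * Q)) {d : SL(2, ℤ)} (hd : IsDel P Q l d) {N : ℕ}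
    (hN : 0 < N) (f : (MF (Gp P Q))ˣ) {x y : Mer} (hx : x ^ N = ((f : MF (Gp P Q)) : Mer))
    (hy : y ^ N = ((DC P Q l (f : MF (Gp P Q)) : MF (Gp P Q)) : Mer))
    {φ ψ : Gp P Q →* ℂˣ} (hφ : HasChr φ x) (hψ : HasChr ψ y) :
    φ.comp (cj d fun _ hγ => hd.conj hγ) = ψ := by
  have hf : ((f : MF (Gp P Q)) : Mer) ≠ 0 := fun e => f.ne_zero (Subtype.ext e)
  have hx0 : x ≠ 0 := by
    rintro rfl
    rw [zero_pow hN.ne'] at hx
    exact hf hx.symm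
  refine chr_unique hN ((map_ne_zero _).2 hx0) (chr_D d (fun _ hγ => hd.conj hγ) hφ) hψ ?_
  rw [hy, DC_coe' hc hd, ← hx, map_pow]

end Vale.Agent.P022.H231.L3
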