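import Vale.Agent.P022.H542.L3.Geo
import Vale.Agent.P022.H231.L3.Hk

/-!
# P022-L3, chapter G, row [HK]: the order at a point of the upper half plane, and `TU`
-/

open UpperHalfPlane ModularForm Filter Topology
open scoped Manifold MatrixGroups ModularForm IntermediateField

noncomputable section

namespace Vale.Agent.P022.H231.L3

open Vale.Agent.P022.H218.L3

/-! ### the order at a point of the upper half plane -/

theorem an {f : ℍ → ℂ} (hf : f ∈ Hol) (τ : ℍ) : AnalyticAt ℂ (f ∘ ofComplex) τ := by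
  have h := UpperHalfPlane.mdifferentiable_iff.1 (mem_Hol.1 hf)
  exact h.analyticAt (isOpen_upperHalfPlaneSet.mem_nhds τ.im_pos)

theorem order_ne_top {f : ℍ → ℂ} (hf : f ∈ Hol) (h0 : f ≠ 0) (τ : ℍ) :
    analyticOrderAt (f ∘ ofComplex) τ ≠ ⊤ := by
  intro h
  rw [analyticOrderAt_eq_top] at h
  apply h0
  have hd := UpperHalfPlane.mdifferentiable_iff.1 (mem_Hol.1 hf)
  have ha : AnalyticOnNhd ℂ (f ∘ ofComplex) {z : ℂ | 0 < z.im} :=
    hd.analyticOnNhd isOpen_upperHalfPlaneSet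
  have hc : IsPreconnected {z : ℂ | 0 < z.im} := (convex_halfSpace_im_gt 0).isPreconnected
  have h1 := ha.eqOn_zero_of_preconnected_of_eventuallyEq_zero hc τ.im_pos h
  funext w
  have h2 := h1 w.im_pos
  simpa [ofComplex_apply] using h2

/-- the order of vanishing at `τ` -/
def oh (τ : ℍ) (f : Hol) : ℕ := analyticOrderNatAt ((f : ℍ → ℂ) ∘ ofComplex) τ

theorem val_ne_zero {f : Hol} (h : f ≠ 0) : (f : ℍ → ℂ) ≠ 0 := fun e => h (Subtype.ext e)

theorem oh_mul (τ : ℍ) {f g : Hol} (hf : f ≠ 0) (hg : g ≠ 0) :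
    oh τ (f * g) = oh τ f + oh τ g := by
  have e : ((f * g : Hol) : ℍ → ℂ) ∘ ofComplex
      = ((f : ℍ → ℂ) ∘ ofComplex) * ((g : ℍ → ℂ) ∘ ofComplex) := rfl
  unfold oh
  rw [e]
  exact analyticOrderNatAt_mul (an f.2 τ) (an g.2 τ) (order_ne_top f.2 (val_ne_zero hf) τ)
    (order_ne_top g.2 (val_ne_zero hg) τ)

/-- the Möbius map as a function on `ℂ` -/
theorem an_mob (g : GL (Fin 2) ℝ) (hg : 0 < g.det.val) (τ : ℍ) :
    AnalyticAt ℂ (fun z : ℂ => ((g • ofComplex z : ℍ) : ℂ)) τ := by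
  have h1 : (fun w : ℍ => ((g • w : ℍ) : ℂ)) ∈ Hol :=
    comp_mem' g hg (f := ((↑) : ℍ → ℂ)) (mem_Hol.2 UpperHalfPlane.mdifferentiable_coe)
  exact an h1 τ

theorem order_comp_le (g : GL (Fin 2) ℝ) (hg : 0 < g.det.val) (τ : ℍ) {f : ℍ → ℂ} (hf : f ∈ Hol) :
    analyticOrderAt (f ∘ ofComplex) ((g • τ : ℍ) : ℂ) ≤
      analyticOrderAt ((fun w : ℍ => f (g • w)) ∘ ofComplex) τ := by
  have e : (fun w : ℍ => f (g • w)) ∘ ofComplex =
      (f ∘ ofComplex) ∘ (fun z : ℂ => ((g • ofComplex z : ℍ) : ℂ)) := by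
    funext z
    simp [ofComplex_apply]
  have h1 : ((g • ofComplex (τ : ℂ) : ℍ) : ℂ) = ((g • τ : ℍ) : ℂ) := by rw [ofComplex_apply]
  have h2 : AnalyticAt ℂ (f ∘ ofComplex) ((fun z : ℂ => ((g • ofComplex z : ℍ) : ℂ)) τ) := by
    show AnalyticAt ℂ (f ∘ ofComplex) ((g • ofComplex (τ : ℂ) : ℍ) : ℂ)
    rw [h1]; exact an hf _
  have h6 := AnalyticAt.analyticOrderAt_comp (f := f ∘ ofComplex)
    (g := fun z : ℂ => ((g • ofComplex z : ℍ) : ℂ)) (z₀ := (τ : ℂ)) h2 (an_mob g hg τ)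
  rw [e, h6]
  have h3 : 1 ≤ analyticOrderAt (fun z : ℂ => ((g • ofComplex z : ℍ) : ℂ) -
      ((g • ofComplex (τ : ℂ) : ℍ) : ℂ)) τ := by
    rw [Order.one_le_iff_ne_zero]
    intro h4
    have h5 := (((an_mob g hg τ).sub analyticAt_const).analyticOrderAt_eq_zero).1 h4
    exact h5 (sub_self _)
  calc analyticOrderAt (f ∘ ofComplex) ((g • τ : ℍ) : ℂ)
      = analyticOrderAt (f ∘ ofComplex) ((g • ofComplex (τ : ℂ) : ℍ) : ℂ) * 1 := by
        rw [mul_one, h1]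
    _ ≤ _ := mul_le_mul' le_rfl h3

theorem order_comp (g : GL (Fin 2) ℝ) (hg : 0 < g.det.val) (τ : ℍ) {f : ℍ → ℂ} (hf : f ∈ Hol) :
    analyticOrderAt ((fun w : ℍ => f (g • w)) ∘ ofComplex) τ =
      analyticOrderAt (f ∘ ofComplex) ((g • τ : ℍ) : ℂ) := by
  apply le_antisymm _ (order_comp_le g hg τ hf)
  have h := order_comp_le g⁻¹ (det_inv_pos hg) (g • τ) (comp_mem' g hg hf)
  simpa using h

theorem oh_pb (g : GL (Fin 2) ℝ) (hg : 0 < g.det.val) (τ : ℍ) (f : Hol) :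
    oh τ (pbH g hg f) = oh (g • τ) f := by
  unfold oh analyticOrderNatAt
  congr 1
  exact order_comp g hg τ f.2

theorem oh_indep (τ : ℍ) {a b c d : Hol} (ha : a ≠ 0) (hb : b ≠ 0) (hc : c ≠ 0) (hd : d ≠ 0)
    (h : algebraMap Hol Mer a / algebraMap Hol Mer b =
      algebraMap Hol Mer c / algebraMap Hol Mer d) :
    (oh τ a : ℤ) - oh τ b = oh τ c - oh τ d := by
  have inj := IsFractionRing.injective Hol Mer
  have nb : algebraMap Hol Mer b ≠ 0 := fun e => hb (inj (by rw [e, map_zero]))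
  have nd : algebraMap Hol Mer d ≠ 0 := fun e => hd (inj (by rw [e, map_zero]))
  rw [div_eq_div_iff nb nd, ← map_mul, ← map_mul] at h
  have h3 := inj h
  have h4 : oh τ a + oh τ d = oh τ c + oh τ b := by
    rw [← oh_mul τ ha hd, ← oh_mul τ hc hb, h3]
  omega

theorem exists_div {x : Mer} (hx : x ≠ 0) : ∃ a b : Hol, a ≠ 0 ∧ b ≠ 0 ∧
    x = algebraMap Hol Mer a / algebraMap Hol Mer b := by
  obtain ⟨a, b, hb, rfl⟩ := IsFractionRing.div_surjective (A := Hol) x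
  refine ⟨a, b, ?_, nonZeroDivisors.ne_zero hb, rfl⟩
  rintro rfl
  exact hx (by rw [map_zero, zero_div])

theorem exists_od (τ : ℍ) (x : Mer) : ∃ n : ℤ, ∀ a b : Hol, a ≠ 0 → b ≠ 0 →
    x = algebraMap Hol Mer a / algebraMap Hol Mer b → n = (oh τ a : ℤ) - oh τ b := by
  by_cases hx : x = 0
  · refine ⟨0, fun a b ha hb e => ?_⟩
    exfalso
    have inj := IsFractionRing.injective Hol Mer
    have nb : algebraMap Hol Mer b ≠ 0 := fun e => hb (inj (by rw [e, map_zero]))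
    have na : algebraMap Hol Mer a ≠ 0 := fun e => ha (inj (by rw [e, map_zero]))
    exact div_ne_zero na nb (e.symm.trans hx)
  · obtain ⟨a, b, ha, hb, e⟩ := exists_div hx
    exact ⟨(oh τ a : ℤ) - oh τ b, fun c d hc hd e' => oh_indep τ ha hb hc hd (e.symm.trans e')⟩

/-- the order at `τ` of a meromorphic function -/
def od (τ : ℍ) (x : Mer) : ℤ := (exists_od τ x).choose

theorem od_div (τ : ℍ) {a b : Hol} (ha : a ≠ 0) (hb : b ≠ 0) :
    od τ (algebraMap Hol Mer a / algebraMap Hol Mer b) = (oh τ a : ℤ) - oh τ b :=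
  (exists_od τ _).choose_spec a b ha hb rfl

theorem od_algebraMap (τ : ℍ) {a : Hol} (ha : a ≠ 0) : od τ (algebraMap Hol Mer a) = oh τ a := by
  have h := od_div τ ha one_ne_zero
  rw [map_one, div_one] at h
  rw [h]
  have h1 : oh τ (1 : Hol) = 0 := by
    have := oh_mul τ (f := (1 : Hol)) (g := 1) one_ne_zero one_ne_zero
    rw [mul_one] at this
    omega
  rw [h1]; simp

theorem od_mul (τ : ℍ) {x y : Mer} (hx : x ≠ 0) (hy : y ≠ 0) : od τ (x * y) = od τ x + od τ y := by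
  obtain ⟨a, b, ha, hb, rfl⟩ := exists_div hx
  obtain ⟨c, d, hc, hd, rfl⟩ := exists_div hy
  rw [div_mul_div_comm, ← map_mul, ← map_mul, od_div τ (mul_ne_zero ha hc) (mul_ne_zero hb hd),
    od_div τ ha hb, od_div τ hc hd, oh_mul τ ha hc, oh_mul τ hb hd]
  push_cast
  ring

theorem od_one (τ : ℍ) : od τ 1 = 0 := by
  have := od_mul τ (x := 1) (y := 1) one_ne_zero one_ne_zero
  rw [mul_one] at this
  omega

theorem od_prod (τ : ℍ) {ι : Type*} (s : Finset ι) (f : ι → Mer) (hf : ∀ i ∈ s, f i ≠ 0) :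
    od τ (∏ i ∈ s, f i) = ∑ i ∈ s, od τ (f i) := by
  classical
  induction s using Finset.induction_on with
  | empty => simp [od_one]
  | insert a s ha ih =>
    rw [Finset.prod_insert ha, Finset.sum_insert ha, od_mul τ (hf a (Finset.mem_insert_self _ _))
      (Finset.prod_ne_zero_iff.2 fun i hi => hf i (Finset.mem_insert_of_mem hi)),
      ih fun i hi => hf i (Finset.mem_insert_of_mem hi)]

theorem od_inv (τ : ℍ) {x : Mer} (hx : x ≠ 0) : od τ x⁻¹ = -od τ x := by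
  have := od_mul τ hx (inv_ne_zero hx)
  rw [mul_inv_cancel₀ hx, od_one] at this
  omega

theorem od_pow (τ : ℍ) {x : Mer} (hx : x ≠ 0) (n : ℕ) : od τ (x ^ n) = n * od τ x := by
  induction n with
  | zero => simp [od_one]
  | succ n ih =>
    rw [pow_succ, od_mul τ (pow_ne_zero _ hx) hx, ih]
    push_cast
    ring

/-- **the order of the pull back** -/
theorem od_pb (g : GL (Fin 2) ℝ) (hg : 0 < g.det.val) (τ : ℍ) {x : Mer} (hx : x ≠ 0) :
    od τ (pb g hg x) = od (g • τ) x := by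
  obtain ⟨a, b, ha, hb, rfl⟩ := exists_div hx
  have inj : ∀ f : Hol, f ≠ 0 → pbH g hg f ≠ 0 := fun f hf e =>
    hf ((pbH g hg).injective (by rw [e, map_zero]))
  rw [map_div₀, pb_algebraMap, pb_algebraMap, od_div τ (inj a ha) (inj b hb), od_div _ ha hb,
    oh_pb, oh_pb]

theorem od_act (γ : SL(2, ℤ)) (τ : ℍ) {x : Mer} (hx : x ≠ 0) :
    od τ (act γ⁻¹ x) = od (γ • τ) x := by
  rw [← pb_SL, od_pb _ _ _ hx]
  rfl

/-! ### `TU` -/

variable {P Q : ℤ} {l : ℕ}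

theorem od_TK (h : Gd P Q l) (τ : ℍ) (f : (MF (Gp P Q))ˣ) :
    od τ (((TK P Q l f : (MF (Gp P Q))ˣ) : MF (Gp P Q)) : Mer) =
      ∑ i, od (gl (al P l (dl P Q l) i) (al_pos h.pr.pos _ i) • τ) ((f : MF (Gp P Q)) : Mer) := by
  have hf : ((f : MF (Gp P Q)) : Mer) ≠ 0 := by
    intro e
    exact f.ne_zero (Subtype.ext e)
  rw [TK_coe h, od_prod]
  · exact Finset.sum_congr rfl fun i _ => od_pb _ _ τ hf
  · intro i _
    exact (map_ne_zero _).2 hf

/-- **`TU`**, in letters: `O a θ` = `θ` is a point over the affine value `a` -/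
theorem TU_aux (h : Gd P Q l) {LS : Type*} [Field LS] (ordLS : LS → ℤ)
    (O : (MF (Gp P Q) → LS) → Prop)
    (H1 : ∀ θ, O θ → ∃ τ : ℍ, ∀ x : MF (Gp P Q), x ≠ 0 → ordLS (θ x) = od τ (x : Mer))
    (H2 : ∀ τ : ℍ, ∃ θ, O θ ∧ ∀ x : MF (Gp P Q), x ≠ 0 → ordLS (θ x) = od τ (x : Mer))
    (N : ℤ) (f : (MF (Gp P Q))ˣ) (hf : ∀ θ, O θ → N ∣ ordLS (θ (f : MF (Gp P Q)))) :
    ∀ θ, O θ → N ∣ ordLS (θ ((TK P Q l f : (MF (Gp P Q))ˣ) : MF (Gp P Q))) := by
  intro θ hθ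
  obtain ⟨τ, hτ⟩ := H1 θ hθ
  rw [hτ _ (Units.ne_zero _), od_TK h]
  refine Finset.dvd_sum fun i _ => ?_
  obtain ⟨θ', h1, h2⟩ := H2 (gl (al P l (dl P Q l) i) (al_pos h.pr.pos _ i) • τ)
  rw [← h2 _ f.ne_zero]
  exact hf θ' h1

end Vale.Agent.P022.H231.L3
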