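import Vale.Agent.P022.H138.L3.Defs
import Vale.Agent.P022.H231.L3.Hk

/-!
# P022-L3, chapter G, row [HK]: `TK`, `DC` in the letters of `Defs.lean`
-/

open UpperHalfPlane ModularForm
open scoped Manifold MatrixGroups ModularForm

noncomputable section

namespace Vale.Agent.P022.H231.L3

open Vale.Agent.P022.H218.L3

/-- **the relation between the pull backs**: `A γ = g B` -/
theorem pbz_step {A B : Matrix (Fin 2) (Fin 2) ℤ} (hA : 0 < A.det) (hB : 0 < B.det)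
    (γ g : SL(2, ℤ))
    (e : A * (γ : Matrix (Fin 2) (Fin 2) ℤ) = (g : Matrix (Fin 2) (Fin 2) ℤ) * B) (x : Mer) :
    act γ⁻¹ (pbz A hA x) = pbz B hB (act g⁻¹ x) := by
  have hp1 : 0 < (A * (γ : Matrix (Fin 2) (Fin 2) ℤ)).det := by
    rw [Matrix.det_mul]; exact mul_pos hA (SL_pos γ)
  have hp2 : 0 < ((g : Matrix (Fin 2) (Fin 2) ℤ) * B).det := by
    rw [← e]; exact hp1
  rw [← pbz_SL, ← pbz_mul hA (SL_pos γ) hp1, pbz_congr e hp1 hp2, pbz_mul (SL_pos g) hB hp2,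
    pbz_SL]

/-- `2^M` -/
abbrev PM (M : ℕ) : ℤ := ((2 ^ M : ℕ) : ℤ)

/-- `N 2^M` -/
abbrev QM (N M : ℕ) : ℤ := ((N * 2 ^ M : ℕ) : ℤ)

theorem mem_Gp_iff (N M : ℕ) (γ : SL(2, ℤ)) :
    γ ∈ Gp (PM M) (QM N M) ↔ Vale.Agent.P022.L3.InG N M γ := Iff.rfl

theorem al_eq_alp (M ℓ : ℕ) (δ : SL(2, ℤ)) (i : Option (Fin ℓ)) :
    al (PM M) ℓ δ i = Vale.Agent.P022.L3.alp M ℓ δ i := by
  cases i <;> rfl

theorem gd_of_good {N M ℓ : ℕ} (h : Vale.Agent.P022.L3.Good N ℓ) : Gd (PM M) (QM N M) ℓ := by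
  obtain ⟨h1, h2⟩ := h
  have h3 : ℓ.Coprime (2 * N) := (Nat.Prime.coprime_iff_not_dvd h1).2 h2
  have h4 : ℓ.Coprime 2 := Nat.Coprime.coprime_mul_right_right h3
  have h5 : ℓ.Coprime N := Nat.Coprime.coprime_mul_left_right h3
  refine ⟨h1, ?_, ?_⟩
  · exact Nat.isCoprime_iff_coprime.2 (h4.pow_right M)
  · exact Nat.isCoprime_iff_coprime.2 (h5.mul_right (h4.pow_right M))

/-- **`TK` in the letters of `Defs`** (the hypothesis `hT` of helper587's `fill_of`) -/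
theorem hT_TK {N M ℓ : ℕ} (hℓ : Vale.Agent.P022.L3.Good N ℓ) {δ : SL(2, ℤ)}
    (hδ : Vale.Agent.P022.L3.IsDel N M ℓ δ) :
    ∃ p : Option (Fin ℓ) → (Mer →ₐ[ℂ] Mer),
      (∀ (i j : Option (Fin ℓ)) (γ g : SL(2, ℤ)),
        Vale.Agent.P022.L3.alp M ℓ δ i * (γ : Matrix (Fin 2) (Fin 2) ℤ) =
          (g : Matrix (Fin 2) (Fin 2) ℤ) * Vale.Agent.P022.L3.alp M ℓ δ j →
        ∀ x, act γ⁻¹ (p i x) = p j (act g⁻¹ x)) ∧
      ∀ f : (MF (Gp (PM M) (QM N M)))ˣ,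
        (((TK (PM M) (QM N M) ℓ f : (MF (Gp (PM M) (QM N M)))ˣ) :
          MF (Gp (PM M) (QM N M))) : Mer) =
          ∏ i, p i ((f : MF (Gp (PM M) (QM N M))) : Mer) := by
  have hg : Gd (PM M) (QM N M) ℓ := gd_of_good hℓ
  refine ⟨fun i => (pbz (al (PM M) ℓ δ i) (al_pos hg.pr.pos δ i)).toAlgHom,
    fun i j γ g e x => ?_, fun f => ?_⟩
  · refine pbz_step (al_pos hg.pr.pos δ i) (al_pos hg.pr.pos δ j) γ g ?_ x
    rw [al_eq_alp, al_eq_alp]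
    exact e
  · exact TK_coe' hg hδ f

/-- **`DC` in the letters of `Defs`** (the hypothesis `hD` of helper587's `fill_of`) -/
theorem hD_DC {N M ℓ : ℕ} (hℓ : Vale.Agent.P022.L3.Good N ℓ) {δ : SL(2, ℤ)}
    (hδ : Vale.Agent.P022.L3.IsDel N M ℓ δ) (f : MF (Gp (PM M) (QM N M))) :
    ((DC (PM M) (QM N M) ℓ f : MF (Gp (PM M) (QM N M))) : Mer) = act δ⁻¹ (f : Mer) := by
  have hg : Gd (PM M) (QM N M) ℓ := gd_of_good hℓ
  exact DC_coe' (hg.cP.mul_right hg.cQ) hδ f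

theorem exists_del {N M ℓ : ℕ} (hℓ : Vale.Agent.P022.L3.Good N ℓ) :
    ∃ δ : SL(2, ℤ), Vale.Agent.P022.L3.IsDel N M ℓ δ := by
  have hg : Gd (PM M) (QM N M) ℓ := gd_of_good hℓ
  exact IsDel.exists (PM M) (QM N M) ℓ (hg.cP.mul_right hg.cQ)

end Vale.Agent.P022.H231.L3
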